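import Mathlib

/-!
# P257: the ring `K[v₁, v₂, …]`

`v 0 = p`, `v (i+1) = X i`, of weight `2(q^(i+1)-1)`; the ideals `J e k = (v_i^(e_i), i < k)`.
-/

namespace Vale.Agent.P257.H689

open MvPolynomial

variable {K : Type*} [CommRing K]

/-- the elements `v_0 = p`, `v_{i+1} = X i` -/
noncomputable def vv (p : K) : ℕ → MvPolynomial ℕ K
  | 0 => C p
  | i + 1 => X i

/-- the degree `2(q^k-1)` of `v_k` -/
def dg (q k : ℕ) : ℕ := 2 * (q ^ k - 1)

/-- the weights of the variables -/
def wt (q i : ℕ) : ℕ := dg q (i + 1)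

/-- the ideal generated by `v_i^(e_i)`, `i < k` -/
noncomputable def J (p : K) (e : ℕ → ℕ) (k : ℕ) : Ideal (MvPolynomial ℕ K) :=
  Ideal.span {x | ∃ i < k, x = vv p i ^ e i}

theorem mem_J_of_lt (p : K) (e : ℕ → ℕ) {k i : ℕ} (h : i < k) : vv p i ^ e i ∈ J p e k :=
  Ideal.subset_span ⟨i, h, rfl⟩

theorem J_zero (p : K) (e : ℕ → ℕ) : J p e 0 = ⊥ := by
  rw [J, Ideal.span_eq_bot]
  rintro x ⟨i, hi, -⟩
  exact absurd hi (Nat.not_lt_zero i)

theorem J_mono (p : K) (e : ℕ → ℕ) {k l : ℕ} (h : k ≤ l) : J p e k ≤ J p e l :=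
  Ideal.span_mono fun _ ⟨i, hi, hx⟩ => ⟨i, hi.trans_le h, hx⟩

/-- the coefficients which are allowed on the small monomials -/
noncomputable def coefIdeal (p : K) (e : ℕ → ℕ) (k : ℕ) : Ideal K :=
  if k = 0 then ⊥ else Ideal.span {p ^ e 0}

/-- the ideal `J`, coefficientwise -/
def crit (p : K) (e : ℕ → ℕ) (k : ℕ) (r : MvPolynomial ℕ K) : Prop :=
  ∀ m : ℕ →₀ ℕ, (∃ i, i + 1 < k ∧ e (i + 1) ≤ m i) ∨ coeff m r ∈ coefIdeal p e k

theorem crit_mul (p : K) (e : ℕ → ℕ) (k : ℕ) {r : MvPolynomial ℕ K} (h : crit p e k r)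
    (s : MvPolynomial ℕ K) : crit p e k (s * r) := by
  classical
  intro m
  by_cases hm : ∃ i, i + 1 < k ∧ e (i + 1) ≤ m i
  · exact Or.inl hm
  · refine Or.inr ?_
    rw [coeff_mul]
    refine Ideal.sum_mem _ fun x hx => ?_
    rw [Finset.HasAntidiagonal.mem_antidiagonal] at hx
    refine Ideal.mul_mem_left _ _ ?_
    rcases h x.2 with ⟨i, hi, hle⟩ | h'
    · refine absurd ⟨i, hi, hle.trans ?_⟩ hm
      rw [← hx]
      simp
    · exact h'

theorem mem_J_iff (p : K) (e : ℕ → ℕ) (k : ℕ) (r : MvPolynomial ℕ K) :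
    r ∈ J p e k ↔ crit p e k r := by
  classical
  constructor
  · intro h
    induction h using Submodule.span_induction with
    | mem x hx =>
      obtain ⟨i, hi, rfl⟩ := hx
      intro m
      rcases i with _ | i
      · right
        have hk : k ≠ 0 := by omega
        rw [coefIdeal, if_neg hk, vv, ← C_pow, coeff_C]
        split_ifs
        · exact Ideal.subset_span rfl
        · exact Ideal.zero_mem _
      · rw [vv, coeff_X_pow]
        split_ifs with hm
        · left
          refine ⟨i, hi, ?_⟩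
          rw [← hm, Finsupp.single_eq_same]
        · exact Or.inr (Ideal.zero_mem _)
    | zero => exact fun m => Or.inr (by rw [coeff_zero]; exact Ideal.zero_mem _)
    | add x y _ _ hx hy =>
      intro m
      rcases hx m with h | h
      · exact Or.inl h
      rcases hy m with h' | h'
      · exact Or.inl h'
      exact Or.inr (by rw [coeff_add]; exact Ideal.add_mem _ h h')
    | smul a x _ hx => exact crit_mul p e k hx a
  · intro h
    rw [r.as_sum]
    refine Ideal.sum_mem _ fun m _ => ?_
    rcases h m with ⟨i, hi, hle⟩ | h'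
    · have : monomial m (coeff m r) =
          monomial (m - Finsupp.single i (e (i + 1))) (coeff m r) * vv p (i + 1) ^ e (i + 1) := by
        rw [vv, X_pow_eq_monomial, monomial_mul, mul_one, tsub_add_cancel_of_le]
        intro j
        by_cases hj : j = i
        · subst hj; simpa using hle
        · rw [Finsupp.single_eq_of_ne hj]; exact Nat.zero_le _
      rw [this]
      exact Ideal.mul_mem_left _ _ (mem_J_of_lt p e hi)
    · rw [coefIdeal] at h'
      split_ifs at h' with hk
      · rw [Ideal.mem_bot] at h'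
        rw [h', monomial_zero]
        exact Ideal.zero_mem _
      · obtain ⟨c, hc⟩ := Ideal.mem_span_singleton'.1 h'
        have : monomial m (coeff m r) = monomial m c * vv p 0 ^ e 0 := by
          rw [vv, ← C_pow, mul_comm, C_mul_monomial, ← hc, mul_comm]
        rw [this]
        exact Ideal.mul_mem_left _ _ (mem_J_of_lt p e (by omega))

/-- `v_k^(e_k)` is a nonzerodivisor modulo `J e k` -/
theorem mem_of_mul_mem [IsDomain K] {p : K} (hp : p ≠ 0) {e : ℕ → ℕ} {k : ℕ}
    {r : MvPolynomial ℕ K} (h : r * vv p k ^ e k ∈ J p e k) : r ∈ J p e k := by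
  classical
  rcases k with _ | k
  · rw [J_zero, Ideal.mem_bot] at h ⊢
    rw [vv, mul_eq_zero, pow_eq_zero_iff'] at h
    rcases h with h | h
    · exact h
    · exact absurd ((map_eq_zero_iff C (C_injective ℕ K)).1 h.1) hp
  · rw [mem_J_iff] at h ⊢
    intro m
    rw [vv] at h
    rcases h (m + Finsupp.single k (e (k + 1))) with ⟨i, hi, hle⟩ | h'
    · left
      refine ⟨i, hi, ?_⟩
      rwa [Finsupp.add_apply, Finsupp.single_eq_of_ne (by omega), add_zero] at hle
    · right
      rwa [X_pow_eq_monomial, coeff_mul_monomial, mul_one] at h'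

/-- the ideals `J` are homogeneous (for all weights) -/
theorem weightedHomogeneousComponent_mem_J {p : K} {e : ℕ → ℕ} {k : ℕ}
    {r : MvPolynomial ℕ K} (h : r ∈ J p e k) (w : ℕ → ℕ) (d : ℕ) :
    weightedHomogeneousComponent w d r ∈ J p e k := by
  classical
  rw [mem_J_iff] at h ⊢
  intro m
  rcases h m with h' | h'
  · exact Or.inl h'
  · right
    rw [coeff_weightedHomogeneousComponent]
    split_ifs
    · exact h'
    · exact Ideal.zero_mem _

/-- in degrees below the degree of `v_k^(e_k)`, `J (k+1)` and `J k` agree -/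
theorem mem_J_of_degree_lt {p : K} {e : ℕ → ℕ} {k : ℕ} {q d : ℕ}
    {r : MvPolynomial ℕ K} (h : r ∈ J p e (k + 1)) (hr : IsWeightedHomogeneous (wt q) r d)
    (hd : d < e k * dg q k) : r ∈ J p e k := by
  classical
  rcases k with _ | k
  · simp [dg] at hd
  · rw [mem_J_iff] at h ⊢
    intro m
    by_cases h0 : coeff m r = 0
    · exact Or.inr (by rw [h0]; exact Ideal.zero_mem _)
    rcases h m with ⟨i, hi, hle⟩ | h'
    · rcases Nat.lt_or_ge (i + 1) (k + 1) with hlt | hge
      · exact Or.inl ⟨i, hlt, hle⟩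
      · obtain rfl : i = k := by omega
        have hw := hr h0
        have h1 : m i • wt q i ≤ d := by
          rw [← hw, Finsupp.weight_apply]
          exact Finset.single_le_sum (f := fun j => m j • wt q j) (fun j _ => Nat.zero_le _)
            (Finsupp.mem_support_iff.2 (by
              intro hmi
              rw [hmi, Nat.le_zero] at hle
              rw [hle, zero_mul] at hd
              omega))
        have h2 : e (i + 1) * dg q (i + 1) ≤ m i • wt q i := Nat.mul_le_mul_right _ hle
        omega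
    · right
      rw [coefIdeal, if_neg (by omega)] at h' ⊢
      exact h'

/-- `v_k` is homogeneous of degree `dg q k` -/
theorem isWeightedHomogeneous_vv (p : K) (q k : ℕ) :
    IsWeightedHomogeneous (wt q) (vv p k) (dg q k) := by
  rcases k with _ | k
  · simpa [dg, vv] using isWeightedHomogeneous_C (wt q) p
  · exact isWeightedHomogeneous_X K (wt q) k

theorem isWeightedHomogeneous_vv_pow (p : K) (q k e : ℕ) :
    IsWeightedHomogeneous (wt q) (vv p k ^ e) (e * dg q k) := by
  have := (isWeightedHomogeneous_vv p q k).pow e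
  rwa [smul_eq_mul] at this

/-- the elements of degree zero are constants -/
theorem eq_C_of_isWeightedHomogeneous_zero {q : ℕ} (hq : 2 ≤ q) {r : MvPolynomial ℕ K}
    (h : IsWeightedHomogeneous (wt q) r 0) : r = C (coeff 0 r) := by
  classical
  ext m
  rw [coeff_C]
  split_ifs with hm
  · rw [hm]
  · by_contra h0
    have hw := h h0
    rw [Finsupp.weight_apply, Finsupp.sum, Finset.sum_eq_zero_iff] at hw
    apply hm
    ext i
    rw [Finsupp.zero_apply]
    by_contra hi
    have := hw i (Finsupp.mem_support_iff.2 (Ne.symm hi))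
    rw [smul_eq_mul, mul_eq_zero] at this
    rcases this with h1 | h1
    · exact hi h1.symm
    · rw [wt, dg] at h1
      have : 2 ^ (i + 1) ≤ q ^ (i + 1) := Nat.pow_le_pow_left hq _
      have h2 : 2 ≤ 2 ^ (i + 1) := by
        calc 2 = 2 ^ 1 := rfl
          _ ≤ 2 ^ (i + 1) := Nat.pow_le_pow_right (by norm_num) (by omega)
      omega

/-- `1 + ∑_{i<k} (|v_i| + 1) ≤ |v_k|` for `k ≥ 1` -/
theorem sum_dg_le {q : ℕ} (hq : 2 ≤ q) {k : ℕ} (hk : 1 ≤ k) :
    1 + ∑ i ∈ Finset.range k, (dg q i + 1) ≤ dg q k := by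
  induction k, hk using Nat.le_induction with
  | base =>
    simp only [Finset.range_one, Finset.sum_singleton, dg, pow_zero, pow_one]
    omega
  | succ k hk ih =>
    rw [Finset.sum_range_succ]
    have h1 : 2 * q ^ k ≤ q ^ (k + 1) := by
      rw [pow_succ, mul_comm]
      exact Nat.mul_le_mul_left _ hq
    have h2 : 2 ≤ q ^ k := by
      calc 2 ≤ q := hq
        _ = q ^ 1 := (pow_one q).symm
        _ ≤ q ^ k := Nat.pow_le_pow_right (by omega) hk
    simp only [dg] at ih ⊢
    omega

theorem dg_mono {q : ℕ} (hq : 2 ≤ q) {k l : ℕ} (h : k ≤ l) : dg q k ≤ dg q l := by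
  have : q ^ k ≤ q ^ l := Nat.pow_le_pow_right (by omega) h
  simp only [dg]
  omega

end Vale.Agent.P257.H689
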